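import Crest.Agent.X212.Iz83.Pk
import Crest.Agent.X212.Iz83.Noz
import Crest.Agent.X212.Dec35.Un
import Crest.Agent.X212.Cyf70.Lz
import Crest.Agent.X212.St29.Lap
import Crest.Agent.X212.Hd34.Sy_Mg
import Crest.Agent.X212.Lg24.Main
import Crest.Agent.X212.Nk89.Gw

/-!
# Row 212, GW-IZ (helper83): the leaf `Nk89.IzStmt`
-/

set_option autoImplicit false
set_option linter.unusedSectionVars false
noncomputable section
open scoped Manifold ContDiff Topology InnerProductSpace ENNReal NNReal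
open MeasureTheory Set Function Filter Real

namespace Crest.Agent.X212.Iz83
open An An.Pre Map77 Sob92 Nd18 Cyf70 Dec35 Nk89
open Gl67 (Cm PP WW ka g0 ka_zero g0_eq)
open Gj67 (rho)

variable {E3 : Type} [NormedAddCommGroup E3] [NormedSpace ℝ E3] [FiniteDimensional ℝ E3]
  [MeasurableSpace E3] [BorelSpace E3]
  {H3 : Type} [TopologicalSpace H3] {I3 : ModelWithCorners ℝ E3 H3} [I3.Boundaryless]
  {Y : Type} [TopologicalSpace Y] [ChartedSpace H3 Y] [IsManifold I3 ∞ Y] [T2Space Y]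
  [MeasurableSpace Y] [BorelSpace Y] [SecondCountableTopology Y] [CompactSpace Y]
  {κ : Type} [Fintype κ] {lam : Type} [Fintype lam] {D : YD I3 Y κ lam} {β : YC Y κ lam}
  {N : ND Y lam}

theorem eq_noz {r n : ℕ} (c : Cfg (Y × ℝ) (Option κ) lam r) (q : YW I3 Y →₀ ℝ) {W : c.m.Cn}
    (e : c.W = W) (z : EuclideanSpace ℂ (Fin 0)) (x : Y × ℝ) :
    c.eD D.G (N.pt D.nk q : Pt _ _ _ r n) x =
      (⟨c.m, W, c.Φ, z⟩ : Cfg _ _ _ 0).eD D.G (N.pt D.nk q : Pt _ _ _ 0 0) x ∧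
    c.eC D.B D.G (N.pt D.nk q : Pt _ _ _ r n) x =
      (⟨c.m, W, c.Φ, z⟩ : Cfg _ _ _ 0).eC D.B D.G (N.pt D.nk q : Pt _ _ _ 0 0) x := by
  obtain rfl := Subsingleton.elim 0 z
  subst e
  exact ⟨congrArg (_ - · x) (pt_noz N D.nk c q).1, congrArg (_ - · x) (pt_noz N D.nk c q).2⟩

section
variable {T U R h : Type} [NormedAddCommGroup T] [NormedSpace ℝ T] [NormedAddCommGroup U]
  [NormedSpace ℝ U] [NormedAddCommGroup R] [NormedSpace ℝ R] [Fintype h] {r n m : ℕ} {c₀ L : ℝ}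
  {bp : Y × ℝ → ℝ} {mo : Y × ℝ → CL (Cf (Option κ) (Fin β.m.N)) ℝ} {w : Cz β}

theorem bd_eq : (zS D T U R β c₀ L bp mo).bd = mbd D.B (cy β).m := by
  simp only [Gl67.Sid.bd, funext (Gl67.Sid.P1.eq_1 _), funext (Gl67.Sid.P2.eq_1 _), Gl67.Sid.Pg,
    Gl67.Sid.Pp, Gl67.Sid.Pm, cst, indicator_univ]
  rfl

theorem W0_eq (A : D.Adm β) (t : T) : (cst T D.B D.G univ univ).W0 (zS D T U R β c₀ L bp mo).md
    (zS D T U R β c₀ L bp mo).A0 t = (cy β).W := funext fun a => funext fun x => by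
  have : ∑ b, D.B.P a b x • β.W b x.1 = β.W a x.1 := A.adm.conn.cc.proj a x
  show _ = β.W a x.1
  simpa [Mod61.Fam.W0, cst, zS] using this

theorem idx_fa (t : Tg D.B (cy β) w) (x : Y × ℝ) :
    idx (fun a b => D.B.P a b x) (.id ℝ _) (fa (w x)) = fa (w x) :=
  fm_ext fun a => (idx_apply _ _ _ a).trans ((Spn45.p1_iff.1 (t.p1 x)).2 a)

theorem row_eq (A : D.Adm β) (t : Tg D.B (cy β) w) (s : T) (x : Y × ℝ) :
    (zS D T U R β c₀ L bp mo).row s w x = rw β D (deriv rho) c₀ w x := by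
  rw [Gl67.Sid.row, bd_eq, W0_eq A, rw, Ie.sig_one (G := ⟨D.Z, ca D.a⟩), dO]
  refine congrArg₂ (· + ·) (congrArg₂ (fun (Φ : Y × ℝ → (cy β).m.V) (v : Cz β) =>
    (((mbd D.B (cy β).m).d0 D.Z (base (cy β).W Φ)).adj D.Z).app D.Z v x)
    (funext fun x => (one_smul _ _).symm) (funext fun x => ext2
      ((f2_sm2 _ _ _).trans (idx_fa t x)) (s2_sm2 _ _ _))) ?_
  rw [Fintype.sum_option]
  simp only [zS, drZ, Option.elim, mul_zero, zero_smul, Finset.sum_const_zero, add_zero,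
    Gl67.Sid.Pg, cst, indicator_univ, mul_smul]
  exact congrArg (c₀ • deriv rho x.2 • ·) (Wz78.pg_of_mem (t.mem x none))

theorem E_eq (A : D.Adm β) (t : Tg D.B (cy β) w) (c : Cm β.m.N r h R) (q : YW I3 Y →₀ ℝ)
    (p : PP T U r h β.m.N) : (zS D T U R β c₀ L bp mo).eF c (zE N D T r n m q) w p = fun x =>
      (rw β D (deriv rho) c₀ w x, f2 _ _ (sz D β (N.pt D.nk q) w x),
        s2 _ _ (sz D β (N.pt D.nk q) w x), bp x • ∫ x, mo x (w x) ∂D.Z.μ) := funext fun x => by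
  have := eq_noz (D := D) (N := N) (n := n) ((zS D T U R β c₀ L bp mo).cfg c w p) q
    (W := (cf (cy β) w).W) (congrArg₂ (cy β).m.addC (W0_eq A _) (funext fun x =>
      (congrArg _ (add_zero _)).trans (idx_fa t x))) β.z x
  exact Prod.ext (row_eq A t _ x) (Prod.ext (this.1.trans (add_zero _).symm)
    (Prod.ext (this.2.trans (zero_add _).symm) rfl))

end

theorem iz0 (hP : P1Stmt I3 Y κ lam) {k : ℕ} (hk : 8 ≤ k) : Iz N D k := by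
  intro hD hN h3 _ β₀ hc hn hF
  have A0 : D.Adm β₀ := ⟨hc.sol.toAdm, hc.tmp⟩
  have nz : ¬D.Zr β₀ := fun z => hF ⟨0, ⟨contMDiffOn_const, fun _ _ => zero_mem _,
    fun a x _ => by simp [Wz78.nab, dv_zero]⟩, fun x _ => by
      rw [show (cy β₀).Φ x = 0 from z x.1, map_zero, map_zero]⟩
  have : Nonempty Y := by_contra fun e => nz fun y => absurd ⟨y⟩ e
  have irr := irr_of hD A0 fun z => absurd z nz
  obtain ⟨n, ν, -, hL, -⟩ := (kp_of (twStmt (Cys97.sm _ _ _ _)) Lg24.lgStmt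
    (Hd34.Sy.syStmt (c0 (Cys97.sm _ _ _ _))) Kp63.ntStmt Kp63.ivStmt hP N D β₀
    ⟨hD, hN, A0⟩).lz_q h3.le St29.Lap.lap hc irr hn
  obtain ⟨d1, e1, q1⟩ := hL.qd
  obtain ⟨d2, e2, q2⟩ := qd_q2 ⟨hD, hN, A0⟩
  obtain ⟨ε, -, Λ, hΛ, Dd, hW, δ₀, d0, d1', H⟩ := est hD A0 irr hL (lt_min e1 e2) hk deriv_rho
  refine ⟨δ₀, d0, fun δ hδ c₀ h0 β A ⟨u, ζ, e⟩ => ?_⟩
  have h := (Ie.mk (G := ⟨D.Z, ca D.a⟩) (bs_cyl hD A0) (bs_cyl hD A) e).symm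
  generalize (fun x => trn (u x)) = u, ζ⁻¹ = ζ at h
  have sA := h.cbA.choose_spec.1
  have s1 : Sm (IC I3) fun z : Y × ℝ => bm z.2 • (innerSL ℝ (n z.1) ∘L aA (cy β₀) (u z) ζ) :=
    (sm_snd bm_cd).smul ((sm_clm (innerSL ℝ) (sm_fst hL.rw.sm)).clm_comp sA)
  refine ⟨fun z => bm z.2, _, ⟨sm_snd bm_cd, hcs_bm fun _ h => h⟩,
    ⟨s1, hcs_bm fun _ h => (congrArg (· • _) h).trans (zero_smul _ _)⟩, fun z hz =>
      ⟨bm_zero.2 hz, (congrArg (· • _) (bm_zero.2 hz)).trans (zero_smul _ _)⟩, ?_⟩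
  intro T U R hh _ _ _ _ _ _ _ r nn m c S Q
  have o : Eqv71.OKZ D := ⟨hD, tame_Z hD⟩
  obtain ⟨C, c1, r₀, r0, H⟩ := H δ hδ.1 hδ.2 (Bl D N S Q) (.cmb hD (cmb_bl S Q)
    (q1.mono (min_le_left _ _)) (fun u hu => (hL.fl u hu).1) fun T => (q2 T).mono (min_le_right _ _))
    (by rintro _ ⟨q, -, rfl⟩; exact sz_sol ((Bki64.crit_iff A0).1 hc))
  obtain ⟨C', c2, r₁, r1, H'⟩ := estT h k deriv_rho c1 r0
  obtain ⟨c3, p3, h3⟩ := peak_le hD (1 + Λ)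
  obtain ⟨c4, p4, h4⟩ := N_nw (I := IC I3) (M := Y × ℝ) (ι := Option κ) (V := Cv (cy β)) Dd (k + 1)
    (3 + 2 * Λ)
  obtain ⟨a1, b1, g1⟩ := nw_N (I := IC I3) (M := Y × ℝ) (ι := Option κ)
    (.fst ℝ _ _ : WW (Option κ) (cy β).m.N ℝ →L[ℝ] (cy β).m.A) Dd k (3 + 2 * Λ)
  obtain ⟨a2, b2, g2⟩ := nw_N (I := IC I3) (M := Y × ℝ) (ι := Option κ)
    ((i1 _ _ ∘L .fst ℝ _ _ + i2 _ _ ∘L .fst ℝ _ _ ∘L .snd ℝ _ _) ∘L .snd ℝ _ _ :
      WW (Option κ) (cy β).m.N ℝ →L[ℝ] Ev (cy β)) Dd k (3 + 2 * Λ)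
  obtain ⟨a3, b3, g3⟩ := nw_N (I := IC I3) (M := Y × ℝ) (ι := Option κ)
    (.snd ℝ _ _ ∘L .snd ℝ _ _ ∘L .snd ℝ _ _ : WW (Option κ) (cy β).m.N ℝ →L[ℝ] ℝ) Dd k (3 + 2 * Λ)
  refine ⟨NNReal.mk (c4 * (3 * C' ^ 2 * (a1 + a2 + c3 ^ 2 * a3))) (by positivity) + 1,
    NNReal.mk (r₁ ^ 2 / (c4 + 1)) (by positivity), 1,
    NNReal.coe_pos.1 (show 0 < r₁ ^ 2 / (c4 + 1) by positivity),
    fun q i1 i2 L (w : Cz β) hw hs p hr => ?_⟩
  have t : Tg D.B (cy β) w := fun x =>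
    (congrArg (fun b : Bd _ _ (Fin β.m.N) => b.pC x (w x)) bd_eq).symm.trans (hw.2.2 x)
  have fw : Fl D.Z.toPre w := .of_hcs hw.1 hw.2.1
  have δ1 := hδ.2.trans d1'
  obtain ⟨ψ, ς, k', W⟩ := hW δ hδ.1 δ1 _ (le_max_right L Λ)
  have l1 : ∀ x : Y × ℝ, g0 δ (ka (L - rho x.2)) ≤ ψ x.2 := fun x => (g0_eq _ _).trans_le
    ((mul_le_mul_of_nonneg_left (tent_bd (by linarith) L x.2).1 hδ.1.le).trans (W.lo _))
  have l2 : ∀ x : Y × ℝ, ψ x.2 ≤ g0 δ (ka (L - rho x.2)) + (3 + 2 * Λ) := fun x => by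
    rw [g0_eq]
    nlinarith [W.hi x.2, mul_le_mul_of_nonneg_left (tent_bd (Λ := Λ) (by linarith) L x.2).2 hδ.1.le]
  obtain ⟨n1, n2⟩ := h4 D.Z _ _ _ W.wd l1 l2 w fw
  obtain ⟨s, hs1, hs2⟩ := peak (D := D) hL.rw.sm.continuous (sA.clm_apply hw.1).continuous
  obtain ⟨fz, hz⟩ := H' _ c₀ _ _ _ _ (by positivity) (Eqv71.natZ (o.pt hN q) o) W.wd w hw.1 hw.2.1 t
    _ rfl (fun hv => H _ ⟨q, ⟨i1, i2⟩, rfl⟩ c₀ h0 _ ψ ς k' W _ ⟨fw.app h.cbA, h.tg t⟩ (fun x hx => by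
      refine (congrArg _ (image_eq_zero_of_notMem_tsupport fun k => ?_)).trans (map_zero _)
      have := hs k
      rw [mem_preimage, ka_zero (by linarith [(rho_bd x.2).1, le_max_left L Λ])] at this
      exact absurd this (by simp)) hv s hs1) (abs_le_of_sq_le_sq' (by
        have := n1.trans (mul_le_mul_right hr _)
        rw [← ENNReal.ofReal_coe_nnreal, ← ENNReal.ofReal_mul p4,
          ENNReal.ofReal_le_ofReal_iff (by positivity), NNReal.coe_mk, ← mul_div_assoc] at this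
        exact this.trans ((div_le_iff₀' (by positivity)).2 (by nlinarith [sq_nonneg r₁]))) r1.le).2
  rw [← hs2] at hz
  refine enn fun X hX => n2.trans (ENNReal.ofReal_le_ofReal ?_)
  have f1 := fl_rw h.b deriv_rho c₀ fw
  have eE := E_eq (T := T) (U := U) (N := N) (n := nn) (m := m) (c₀ := c₀) (L := L) (bp := fun z => bm z.2)
    (mo := fun z => bm z.2 • (innerSL ℝ (n z.1) ∘L aA (cy β₀) (u z) ζ)) A t c q p
  have f3 := fl_bm (D := D) (∫ x, bm x.2 * ⟪n x.1, aA (cy β₀) (u x) ζ (w x)⟫_ℝ ∂D.Z.μ)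
  replace hX := (congrArg (Gl67.N D.Z.toPre (fun x => g0 δ (ka (L - rho x.2))) univ k)
    eE).symm.trans_le hX
  have sE := f1.sm.prodMk_space ((sm_clm (f2 _ _) fz.sm).prodMk_space
    ((sm_clm (s2 _ _) fz.sm).prodMk_space f3.sm))
  rw [NNReal.coe_mk, mul_assoc]
  exact mul_le_mul_of_nonneg_left (ar3 (nw_nonneg _ _) c2 hz (h3 ψ _ _ W.wd s (fun t ht => by
    have := W.hi s
    have := W.lo t
    have : tent (max L Λ) 0 0 s ≤ tent (max L Λ) 0 0 t + 1 := by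
      simp only [tent_abs]
      exact max_le (by positivity) (by linarith [le_max_right 0 (max L Λ - |t|), abs_nonneg s])
    nlinarith [hδ.1]) _ k)
    (g1 D.Z _ _ _ W.wd l1 l2 _ sE _ (fun _ => rfl) f1 X hX)
    (g2 D.Z _ _ _ W.wd l1 l2 _ sE _ (fun _ => (i1_add_i2 _).symm) fz X hX)
    (g3 D.Z _ _ _ W.wd l1 l2 _ sE _ (fun _ => rfl) f3 X hX)) p4

/-- **LEAF IZ** -/
theorem iz (hP : ∀ (Y : M.Mf 3) [CompactSpace Y.M], P1Stmt Y.I Y.M κ lam) {k : ℕ} (hk : 8 ≤ k) :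
    IzStmt κ lam k := fun Y _ _ _ => iz0 (hP Y) hk

end Crest.Agent.X212.Iz83
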